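import Vale.Agent.P216.N929.Fib0
import Vale.Agent.P216.H787.Cls

/-!
# Mayer-Vietoris for list cochains on the small lists of a set

`Cov2 X A B`: every sufficiently small list of `X` lies in `A` or in `B`.
-/

open Finsupp Set

namespace Vale.Agent.P216.H929B

open Vale.Agent.P216.Sl Vale.Agent.P216.PS Vale.Agent.P216.N929

variable {k : Type} [Field k] {E : Type} [PseudoMetricSpace E]

/-- Every sufficiently small list of `X` lies in `A` or in `B`. -/
def Cov2 (X A B : Set E) : Prop :=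
  ∃ r > 0, ∀ l : List E, SmL X r l → (∀ x ∈ l, x ∈ A) ∨ (∀ x ∈ l, x ∈ B)

open Classical in
/-- Extension of `γ` from the lists in `C` by zero. -/
noncomputable def ext0 (C : Set E) (γ : List E → k) : List E → k :=
  fun l => if ∀ x ∈ l, x ∈ C then γ l else 0

omit [PseudoMetricSpace E] in
theorem ext0_of {C : Set E} {γ : List E → k} {l : List E} (h : ∀ x ∈ l, x ∈ C) :
    ext0 C γ l = γ l := by
  rw [ext0, if_pos h]

omit [PseudoMetricSpace E] in
theorem dl_ext0 {C : Set E} {γ : List E → k} {l : List E} (h : ∀ x ∈ l, x ∈ C) :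
    dl (ext0 C γ) l = dl γ l :=
  N929.dl_congr fun _ _ h2 => ext0_of fun x hx => h x (h2 x hx)

open Classical in
/-- `a` on the lists in `A`, `b` elsewhere. -/
noncomputable def glu (A : Set E) (a b : List E → k) : List E → k :=
  fun l => if ∀ x ∈ l, x ∈ A then a l else b l

omit [Field k] [PseudoMetricSpace E] in
theorem glu_of {A : Set E} {a b : List E → k} {l : List E} (h : ∀ x ∈ l, x ∈ A) :
    glu A a b l = a l := by
  rw [glu, if_pos h]

omit [PseudoMetricSpace E] in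
theorem dl_glu_of {A : Set E} {a b : List E → k} {l : List E} (h : ∀ x ∈ l, x ∈ A) :
    dl (glu A a b) l = dl a l :=
  N929.dl_congr fun _ _ h2 => glu_of fun x hx => h x (h2 x hx)

omit [PseudoMetricSpace E] in
/-- On a list in `B` where `a = b` on the faces in `A ∩ B`. -/
theorem dl_glu_right {A B : Set E} {a b : List E → k} {l : List E} (hB : ∀ x ∈ l, x ∈ B)
    (hab : ∀ l' : List E, l'.length + 1 = l.length → (∀ x ∈ l', x ∈ l) →
      (∀ x ∈ l', x ∈ A ∩ B) → a l' = b l') :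
    dl (glu A a b) l = dl b l := by
  refine N929.dl_congr fun l' h1 h2 => ?_
  by_cases h : ∀ x ∈ l', x ∈ A
  · rw [glu_of h]
    exact hab l' h1 h2 fun x hx => ⟨h x hx, hB x (h2 x hx)⟩
  · rw [glu, if_neg h]

/-- **Mayer-Vietoris, exactness at `H^n(X)`.** A function `f` which is a coboundary on `A` and on
`B` such that the cocycles of one degree less on `A' ∩ B'` are coboundaries on `A ∩ B`. -/
theorem mv_exact {X A B A' B' : Set E} (hc : Cov2 X A B) (hA : A ⊆ A') (hB : B ⊆ B') {n : ℕ}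
    {f : List E → k} (fA : ExL A' (n + 1) f) (fB : ExL B' (n + 1) f)
    (hAB : ∀ g : List E → k, CocL (A' ∩ B') n g → ExL (A ∩ B) n g) : ExL X (n + 1) f := by
  obtain ⟨a, -, ea, hea, ha⟩ := fA
  obtain ⟨b, -, eb, heb, hb⟩ := fB
  obtain ⟨r, hr, hc⟩ := hc
  have h1 : CocL (A' ∩ B') n (fun l => a l + -b l) := by
    refine ⟨min ea eb, lt_min hea heb, fun l hl hs => ?_⟩
    rw [Sl.dl_add, PS.dl_neg, ← ha l hl ⟨fun x hx => (hs.1 x hx).1,
      fun x hx y hy => (hs.2 x hx y hy).trans_le (min_le_left _ _)⟩,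
      ← hb l hl ⟨fun x hx => (hs.1 x hx).2,
      fun x hx y hy => (hs.2 x hx y hy).trans_le (min_le_right _ _)⟩, add_neg_cancel]
  obtain ⟨γ, hγ0, eγ, heγ, hγ⟩ := hAB _ h1
  set G : List E → k := glu A a (fun l => b l + dl (ext0 (A ∩ B) γ) l) with hG
  refine ⟨G, by simp, min (min r eγ) (min ea eb), lt_min (lt_min hr heγ) (lt_min hea heb),
    fun l hl hs => ?_⟩
  have hsr : SmL X r l := hs.mono subset_rfl ((min_le_left _ _).trans (min_le_left _ _))
  have hsγ : SmL X eγ l := hs.mono subset_rfl ((min_le_left _ _).trans (min_le_right _ _))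
  have hsa : SmL X ea l := hs.mono subset_rfl ((min_le_right _ _).trans (min_le_left _ _))
  have hsb : SmL X eb l := hs.mono subset_rfl ((min_le_right _ _).trans (min_le_right _ _))
  by_cases hlA : ∀ x ∈ l, x ∈ A
  · rw [hG, dl_glu_of hlA]
    exact ha l hl ⟨fun x hx => hA (hlA x hx), hsa.2⟩
  · have hlB : ∀ x ∈ l, x ∈ B := (hc l hsr).resolve_left hlA
    rw [hG, dl_glu_right hlB]
    · rw [Sl.dl_add, N929.dl_dl, add_zero]
      exact hb l hl ⟨fun x hx => hB (hlB x hx), hsb.2⟩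
    · intro l' h1 h2 h3
      rw [dl_ext0 h3, ← hγ l' (by omega) ⟨h3, fun x hx y hy => hsγ.2 x (h2 x hx) y (h2 y hy)⟩]
      ring

/-- **Mayer-Vietoris, exactness at `H^n(A) ⊕ H^n(B)`.** Two cocycles which differ by a coboundary
on `A ∩ B` glue to a cocycle on `X`. -/
theorem mv_glue {X A B : Set E} (hc : Cov2 X A B) {n : ℕ} {a b : List E → k}
    (ha : CocL A n a) (hb : CocL B n b) (hab : ExL (A ∩ B) n (fun l => a l + -b l)) :
    ∃ U : List E → k, CocL X n U ∧ (∀ l, (∀ x ∈ l, x ∈ A) → U l = a l) ∧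
      ExL B n (fun l => U l + -b l) := by
  obtain ⟨ea, hea, ha⟩ := ha
  obtain ⟨eb, heb, hb⟩ := hb
  obtain ⟨γ, hγ0, eγ, heγ, hγ⟩ := hab
  obtain ⟨r, hr, hc⟩ := hc
  set U : List E → k := glu A a (fun l => b l + dl (ext0 (A ∩ B) γ) l) with hU
  have key : ∀ l' : List E, l'.length = n + 1 → (∀ x ∈ l', x ∈ A ∩ B) →
      (∀ x ∈ l', ∀ y ∈ l', dist x y < eγ) → a l' = b l' + dl (ext0 (A ∩ B) γ) l' := by
    intro l' h1 h2 h3
    rw [dl_ext0 h2, ← hγ l' h1 ⟨h2, h3⟩]
    ring
  refine ⟨U, ⟨min (min r eγ) (min ea eb), lt_min (lt_min hr heγ) (lt_min hea heb),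
    fun l hl hs => ?_⟩, fun l hl => glu_of hl, ext0 (A ∩ B) γ, ?_, eγ, heγ, fun l hl hs => ?_⟩
  · have hsr : SmL X r l := hs.mono subset_rfl ((min_le_left _ _).trans (min_le_left _ _))
    have hsγ : SmL X eγ l := hs.mono subset_rfl ((min_le_left _ _).trans (min_le_right _ _))
    have hsa : SmL X ea l := hs.mono subset_rfl ((min_le_right _ _).trans (min_le_left _ _))
    have hsb : SmL X eb l := hs.mono subset_rfl ((min_le_right _ _).trans (min_le_right _ _))
    by_cases hlA : ∀ x ∈ l, x ∈ A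
    · rw [hU, dl_glu_of hlA]
      exact ha l hl ⟨hlA, hsa.2⟩
    · have hlB : ∀ x ∈ l, x ∈ B := (hc l hsr).resolve_left hlA
      rw [hU, dl_glu_right hlB]
      · rw [Sl.dl_add, N929.dl_dl, add_zero]
        exact hb l hl ⟨hlB, hsb.2⟩
      · intro l' h1 h2 h3
        exact key l' (by omega) h3 fun x hx y hy => hsγ.2 x (h2 x hx) y (h2 y hy)
  · intro h0 l
    rw [ext0]
    split_ifs
    · exact hγ0 h0 l
    · rfl
  · by_cases hlA : ∀ x ∈ l, x ∈ A
    · change glu A a _ l + -b l = _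
      rw [glu_of hlA, key l hl (fun x hx => ⟨hlA x hx, hs.1 x hx⟩) hs.2]
      ring
    · change glu A a _ l + -b l = _
      rw [glu, if_neg hlA]
      ring

end Vale.Agent.P216.H929B
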