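import Vale.Agent.P216.H971B.Props

/-!
# P216-B, row R8: `etaL` is a cocycle on the loops of a level
-/

open Finsupp Set

namespace Vale.Agent.P216.H929B

open Vale.Agent.P216.Sl Vale.Agent.P216.PS Vale.Agent.P216.N929 Vale.Agent.P216.L250
open Vale.Agent.P216.H971B (evl etaL)
open Vale.Agent.P216.H977C (gr_times)

variable {k : Type} [Field k] {M : Type} [MetricSpace M]

theorem evl_one_zero (l : List (LM M)) :
    (l.map fun a => (a, (1 : ℝ))).map evl = (l.map fun a => (a, (0 : ℝ))).map evl := by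
  rw [List.map_map, List.map_map]
  refine List.map_congr_left fun w _ => ?_
  have := fn_periodic w 0
  rw [zero_add] at this
  exact this

/-- The lists of the grid are small on `M`. -/
theorem gridL_small {T δ ε : ℝ} (hT : 0 ≤ T) (hδ : 0 < δ) (hδε : T * Real.sqrt δ < ε)
    {l : List (LM M)} (hl : SmL (XE M T) ε l) {i : ℕ} {L : List (LM M × ℝ)}
    (hG : Gr l [(i : ℝ) * δ, ((i + 1 : ℕ) : ℝ) * δ] L) {p q} (hp : p ∈ L) (hq : q ∈ L) :
    dist (evl p) (evl q) < 2 * ε := by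
  obtain ⟨h1, h2, h3⟩ := gr_times hδ hG hp
  obtain ⟨g1, g2, g3⟩ := gr_times hδ hG hq
  have a1 := dist_fn_le_of_mem (hl.1 p.1 h1) hT p.2 q.2
  have a2 := dist_fn_le p.1 q.1 q.2
  have h5 := hl.2 p.1 h1 q.1 g1
  have h6 : |p.2 - q.2| ≤ δ := by
    push_cast at h3 g3
    rw [abs_le]
    constructor <;> nlinarith
  have h7 : T * Real.sqrt |p.2 - q.2| ≤ T * Real.sqrt δ :=
    mul_le_mul_of_nonneg_left (Real.sqrt_le_sqrt h6) hT
  have h8 := dist_triangle (fn p.1 p.2) (fn p.1 q.2) (fn q.1 q.2)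
  change dist (fn p.1 p.2) (fn q.1 q.2) < 2 * ε
  linarith

/-- `etaL` is a cocycle on the small lists. -/
theorem dl_etaL {N q : ℕ} {U : List M → k} {T ε : ℝ} (hT : 0 ≤ T)
    (hU : ∀ l, l.length = q + 1 + 2 → SmL (univ : Set M) (2 * ε) l → dl U l = 0)
    (hN : T * Real.sqrt (1 / ((N : ℝ) + 1)) < ε) {l : List (LM M)} (hl : l.length = q + 2)
    (hs : SmL (XE M T) ε l) : dl (etaL N U) l = 0 := by
  have hδ0 : (0 : ℝ) < 1 / ((N : ℝ) + 1) := by positivity
  have hne : l ≠ [] := by rintro rfl; simp at hl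
  have h1 : ((N + 1 : ℕ) : ℝ) * (1 / ((N : ℝ) + 1)) = 1 := by
    push_cast
    field_simp
  rw [etaL, N929.dl_fib (mesh_Ln _ _) _ hne, N929.bd_mesh, map_sub, map_sub, ev_sh_point _ hne,
    ev_sh_point _ hne, h1, evl_one_zero, sub_self, mul_zero, add_zero]
  refine fib_eq_zero (mesh_mem _ _) fun t ht L hL => ?_
  obtain ⟨j, _, rfl⟩ := ht
  have hLl : L.length = q + 1 + 2 := by
    have := hL.1
    simp only [List.length_cons, List.length_nil] at this
    omega
  rw [N929.dl_map U evl]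
  refine hU _ (by rw [List.length_map, hLl]) ⟨fun _ _ => mem_univ _, ?_⟩
  intro x hx y hy
  obtain ⟨p, hp, rfl⟩ := List.mem_map.1 hx
  obtain ⟨q, hq, rfl⟩ := List.mem_map.1 hy
  exact gridL_small hT hδ0 hN hs hL hp hq

/-- **R8**. -/
theorem r8Goal : H971B.R8Goal := by
  intro M _ _ k _ q U hU T hT
  obtain ⟨ε0, hε0, hU⟩ := hU
  have hlim : Filter.Tendsto (fun N : ℕ => T * Real.sqrt (1 / ((N : ℝ) + 1))) Filter.atTop
      (nhds 0) := by
    have h1 := (Real.continuous_sqrt.tendsto 0).comp tendsto_one_div_add_atTop_nhds_zero_nat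
    have h2 := h1.const_mul T
    simpa using h2
  obtain ⟨N0, hN0⟩ := Filter.eventually_atTop.1 (hlim.eventually_lt_const
    (show (0 : ℝ) < ε0 / 2 by positivity))
  refine ⟨N0, fun N hN => ⟨ε0 / 2, by positivity, fun l hl hs => ?_⟩⟩
  refine dl_etaL hT (fun l' h1 h2 => hU l' h1 (h2.mono subset_rfl (by linarith))) (hN0 N hN) hl hs

end Vale.Agent.P216.H929B
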